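import Vale.Agent.P281.H578.S.Flat
import Vale.Agent.P267.H857.Alg
import Vale.Agent.P290.H686.LBPull

/-!
# P281, T-S, block S3 (helper578): the class of the transported form is constant
-/

set_option linter.unusedSectionVars false
set_option linter.unusedVariables false

open scoped Manifold ContDiff Topology ComplexConjugate
open Set Filter Vale.Agent.P267 Vale.Agent.P267.FL Vale.Agent.P290 Vale.Agent.P290.H805
  Vale.Agent.P290.H95 Vale.Agent.P290.H445 Vale.Agent.P290.H686 Vale.Agent.P267.RR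
  Vale.Agent.P267.H332 Vale.Agent.P267.BlockC Vale.Agent.P290.H722

noncomputable section

namespace Vale.Agent.P281.H578.S

variable {V : Type} [NormedAddCommGroup V] [NormedSpace ℂ V] {D : Set V}
  {E : Type} [TopologicalSpace E] [T2Space E] {𝓕 : K3Family V D E} {t₀ : D}
  {S : SmTriv 𝓕 t₀} {K : TotForm 𝓕.F} {t t' : V} {B : Set V}

/-- the pairing with a closed form has derivative zero -/
theorem hasFDerivAt_pair_W (ht : t ∈ S.N) {G : TwoF (𝓕.k3 t₀).X} (hG : G ∈ HC (𝓕.k3 t₀).X) :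
    HasFDerivAt (fun t => pair (W S K t) G) (0 : V →L[ℝ] ℂ) t := by
  obtain ⟨L, hL, hL2⟩ := (smFam_W (S := S) (K := K)).hasFDerivAt_pair S.isOpen ht hG.1
  have h0 : L = 0 := by
    ext u
    rw [hL2]
    exact H342.pair_exact intAx (exact_dT_W ht u) hG
  rw [h0] at hL
  exact hL

/-- **The class of the transported form is constant.** -/
theorem pair_W_const (hB : IsOpen B) (hc : IsPreconnected B) (hBN : B ⊆ S.N)
    {G : TwoF (𝓕.k3 t₀).X} (hG : G ∈ HC (𝓕.k3 t₀).X) (ht : t ∈ B) (ht' : t' ∈ B) :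
    pair (W S K t) G = pair (W S K t') G :=
  hB.is_const_of_fderiv_eq_zero (𝕜 := ℝ) hc
    (fun s hs => (hasFDerivAt_pair_W (hBN hs) hG).differentiableAt.differentiableWithinAt)
    (fun s hs => (hasFDerivAt_pair_W (hBN hs) hG).fderiv) ht ht'

theorem pair_W_symm (F G : TwoF (𝓕.k3 t₀).X) : pair F G = pair G F := H342.pair_comm F G

/-! ### the value at `t₀` -/

theorem homeo_zero (h : (t₀ : V) ∈ S.N) (x : (𝓕.k3 t₀).X) : S.homeo t₀ h x = x := by
  have h1 := S.homeo_val t₀ h x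
  rw [S.Φ₀ x] at h1
  exact Fib.ext h1

theorem W_zero : W S K t₀ = res K t₀ := by
  rw [W_eq S.mem]
  have h : (S.homeo t₀ S.mem : (𝓕.k3 t₀).X → (𝓕.k3 t₀).X) = fun x => x :=
    funext fun x => homeo_zero S.mem x
  show pb2 (S.homeo t₀ S.mem : (𝓕.k3 t₀).X → (𝓕.k3 t₀).X) (res K t₀) = res K t₀
  rw [h, pb2_id]

/-! ### the pairings -/

theorem pair_T_W (ht : t ∈ S.N) :
    pair (S.T t) (W S K t) = pair (OmF (𝓕.k3 ⟨t, S.sub ht⟩)) (res K ⟨t, S.sub ht⟩) := by
  rw [S.T_eq ht, W_eq ht]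
  exact intX_wedge_pb2' _ (S.diffeo t ht) (OmF_smooth _) (smooth_res K _)

theorem pair_W_W (K' : TotForm 𝓕.F) (ht : t ∈ S.N) :
    pair (W S K t) (W S K' t) = pair (res K ⟨t, S.sub ht⟩) (res K' ⟨t, S.sub ht⟩) := by
  rw [W_eq ht, W_eq ht]
  exact intX_wedge_pb2' _ (S.diffeo t ht) (smooth_res K _) (smooth_res K' _)

theorem pair_T_T (ht : t ∈ S.N) :
    pair (S.T t) (S.T t) = pair (OmF (𝓕.k3 ⟨t, S.sub ht⟩)) (OmF (𝓕.k3 ⟨t, S.sub ht⟩)) := by
  rw [S.T_eq ht]
  exact intX_wedge_pb2' _ (S.diffeo t ht) (OmF_smooth _) (OmF_smooth _)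

/-! ### real forms, (1,1)-forms -/

/-- `K` is real on the fibres -/
def TotForm.Real {F : Family D E} (K : TotForm F) : Prop :=
  ∀ (y : E) (t : D) (w : ℂ × ℂ), (t, w) ∈ (F.triv y).target → ∀ a b : ℂ × ℂ,
    conj (K.κ y (t, w) (0, a) (0, b)) = K.κ y (t, w) (0, a) (0, b)

/-- `K` has type (1,1) on the fibres -/
def TotForm.Is11 {F : Family D E} (K : TotForm F) : Prop :=
  ∀ (y : E) (t : D) (w : ℂ × ℂ), (t, w) ∈ (F.triv y).target → ∀ a b : ℂ × ℂ,
    K.κ y (t, w) (0, Complex.I • a) (0, Complex.I • b) = K.κ y (t, w) (0, a) (0, b)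

/-- `K` is positive on the fibres -/
def TotForm.Pos {F : Family D E} (K : TotForm F) : Prop :=
  ∀ (y : E) (t : D) (w : ℂ × ℂ), (t, w) ∈ (F.triv y).target → ∀ a : ℂ × ℂ, a ≠ 0 →
    0 < (K.κ y (t, w) (0, a) (0, Complex.I • a)).re

theorem resB_I (h : K.Is11) (t : D) (x : Fib 𝓕.F t) (a b : FL.C2) :
    resB K t x (Complex.I • a) (Complex.I • b) = resB K t x a b := by
  rw [resB_apply, resB_apply, map_smul, map_smul]
  exact h _ t _ (mem_target_self t x) _ _

theorem single_I (i : Fin 2) : (Pi.single i Complex.I : FL.C2) = Complex.I • Pi.single i 1 := by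
  rw [← Pi.single_smul, smul_eq_mul, mul_one]

theorem c20_eq_zero {T : FL.C2 →L[ℝ] FL.C2 →L[ℝ] ℂ}
    (h : ∀ a b, T (Complex.I • a) (Complex.I • b) = T a b) : c20 (fun v => T v) = 0 := by
  have h1 := h (Pi.single 0 1) (Pi.single 1 1)
  have h2 := h (Complex.I • Pi.single 0 1) (Pi.single 1 1)
  rw [smul_smul, Complex.I_mul_I, neg_one_smul, map_neg, _root_.neg_apply] at h2
  simp only [c20, k10, single_I]
  rw [h1, ← h2]
  linear_combination (1 / 4 : ℂ) * T (Pi.single 0 1) (Pi.single 1 1) * Complex.I_mul_I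

theorem c02_eq_zero {T : FL.C2 →L[ℝ] FL.C2 →L[ℝ] ℂ}
    (h : ∀ a b, T (Complex.I • a) (Complex.I • b) = T a b) : c02 (fun v => T v) = 0 := by
  have h1 := h (Pi.single 0 1) (Pi.single 1 1)
  have h2 := h (Complex.I • Pi.single 0 1) (Pi.single 1 1)
  rw [smul_smul, Complex.I_mul_I, neg_one_smul, map_neg, _root_.neg_apply] at h2
  simp only [c02, k01, single_I]
  rw [h1, ← h2]
  linear_combination (1 / 4 : ℂ) * T (Pi.single 0 1) (Pi.single 1 1) * Complex.I_mul_I

/-- a form of type (1,1) on the fibres -/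
theorem res_f20 (h : K.Is11) (t : D) (x : (𝓕.k3 t).X) : (res K t).f20 x = 0 :=
  c20_eq_zero (resB_I h t x)

theorem res_f02 (h : K.Is11) (t : D) (x : (𝓕.k3 t).X) : (res K t).f02 x = 0 :=
  c02_eq_zero (resB_I h t x)

theorem pair_Om_res (h : K.Is11) (t : D) : pair (OmF (𝓕.k3 t)) (res K t) = 0 := by
  have h1 : (OmF (𝓕.k3 t)).wedge (res K t) = fun _ => 0 := by
    funext x
    have h2 := res_f02 h t x
    simp [TwoF.wedge, OmF, h2]
  rw [pair, h1]
  exact intX_zero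

theorem res_real (h : K.Real) (t : D) : (res K t).Real := by
  rw [TwoF.real_iff_bar]
  refine val2_inj fun x => ?_
  ext a b
  rw [val2_bar, val2_res]
  exact h _ t _ (mem_target_self t x) _ _

end Vale.Agent.P281.H578.S
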