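import Vale.Agent.P290.H722.Loc

/-!
# P281, T-S, block S3 (helper578), local part

`κ` a two-form near a point of `V × ℂ²` (a function with values in the real bilinear maps), `r (t, z)`
smooth with values in `ℂ²`. `tk` = the vertical part of the pullback of `κ` by `(t, z) ↦ (t, r (t, z))`,
`ak` = its contraction with `(u, ∂_u r)`. If `κ` is closed, the derivative of `tk` in the direction `u`
is the exterior derivative of the one-form `ak` (Cartan's formula).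
-/

set_option linter.unusedSectionVars false
set_option linter.unusedVariables false

open scoped Manifold ContDiff Topology ComplexConjugate
open Set Filter Vale.Agent.P267.FL Vale.Agent.P290.H686 Vale.Agent.P290.H722

noncomputable section

namespace Vale.Agent.P281.H578.S

section gen

variable {P Q : Type*} [NormedAddCommGroup P] [NormedSpace ℝ P] [NormedAddCommGroup Q]
  [NormedSpace ℝ Q]

/-- the exterior derivative of a two-form on an open subset of a normed space -/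
def dd (F : P → P →L[ℝ] P →L[ℝ] ℂ) (z u v w : P) : ℂ :=
  fderiv ℝ F z u v w + fderiv ℝ F z v w u + fderiv ℝ F z w u v

/-- the pullback of a two-form, evaluated -/
def pl (F : Q → Q →L[ℝ] Q →L[ℝ] ℂ) (G : P → Q) (z a b : P) : ℂ :=
  F (G z) (fderiv ℝ G z a) (fderiv ℝ G z b)

variable {F : Q → Q →L[ℝ] Q →L[ℝ] ℂ} {G : P → Q} {z : P}

theorem hasFDerivAt_pl (hF : DifferentiableAt ℝ F (G z)) (hG : ContDiffAt ℝ 2 G z) (v w : P) :
    ∃ L : P →L[ℝ] ℂ, HasFDerivAt (fun y => pl F G y v w) L z ∧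
      ∀ u, L u = fderiv ℝ F (G z) (fderiv ℝ G z u) (fderiv ℝ G z v) (fderiv ℝ G z w) +
        F (G z) (fderiv ℝ (fderiv ℝ G) z u v) (fderiv ℝ G z w) +
        F (G z) (fderiv ℝ G z v) (fderiv ℝ (fderiv ℝ G) z u w) := by
  have hG1 : DifferentiableAt ℝ G z := hG.differentiableAt (by norm_num)
  have hG2 : DifferentiableAt ℝ (fderiv ℝ G) z :=
    (hG.fderiv_right (m := 1) (by norm_num)).differentiableAt (by norm_num)
  have h2 : HasFDerivAt (fun y => F (G y)) ((fderiv ℝ F (G z)).comp (fderiv ℝ G z)) z :=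
    HasFDerivAt.comp (𝕜 := ℝ) (g := F) (f := G) (g' := fderiv ℝ F (G z))
      (f' := fderiv ℝ G z) z hF.hasFDerivAt hG1.hasFDerivAt
  have h3 : ∀ x, HasFDerivAt (fun y => fderiv ℝ G y x) _ z := fun x =>
    hG2.hasFDerivAt.clm_apply (hasFDerivAt_const x z)
  have h4 := (h2.clm_apply (h3 v)).clm_apply (h3 w)
  refine ⟨_, h4, fun u => ?_⟩
  simp
  ring

/-- the pullback of a closed two-form is closed -/
theorem pl_closed (hF : DifferentiableAt ℝ F (G z)) (hG : ContDiffAt ℝ 2 G z)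
    (hs : ∀ a b, F (G z) a b = -F (G z) b a) (u v w : P)
    (hd : dd F (G z) (fderiv ℝ G z u) (fderiv ℝ G z v) (fderiv ℝ G z w) = 0) :
    fderiv ℝ (fun y => pl F G y v w) z u + fderiv ℝ (fun y => pl F G y w u) z v +
      fderiv ℝ (fun y => pl F G y u v) z w = 0 := by
  obtain ⟨L, hL, hL2⟩ := hasFDerivAt_pl hF hG v w
  obtain ⟨M, hM, hM2⟩ := hasFDerivAt_pl hF hG w u
  obtain ⟨N, hN, hN2⟩ := hasFDerivAt_pl hF hG u v
  have hsym : ∀ p q, fderiv ℝ (fderiv ℝ G) z p q = fderiv ℝ (fderiv ℝ G) z q p := fun p q =>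
    (hG.isSymmSndFDerivAt (by simp)) p q
  rw [hL.fderiv, hM.fderiv, hN.fderiv, hL2, hM2, hN2, hsym v u, hsym w v, hsym w u,
    hs (fderiv ℝ G z w) (fderiv ℝ (fderiv ℝ G) z u v),
    hs (fderiv ℝ G z u) (fderiv ℝ (fderiv ℝ G) z v w),
    hs (fderiv ℝ G z v) (fderiv ℝ (fderiv ℝ G) z u w)]
  rw [dd] at hd
  linear_combination hd

theorem pl_swap (hs : ∀ a b, F (G z) a b = -F (G z) b a) (a b : P) :
    pl F G z a b = -pl F G z b a := hs _ _

/-- smoothness of the pullback -/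
theorem contDiffAt_pl {n : WithTop ℕ∞} (hn : n + 1 ≤ n) (hF : ContDiffAt ℝ n F (G z))
    (hG : ContDiffAt ℝ n G z) (a b : P) :
    ContDiffAt ℝ n (fun y => pl F G y a b) z := by
  have h1 : ContDiffAt ℝ n (fun y => F (G y)) z := hF.comp z hG
  have h2 : ∀ a, ContDiffAt ℝ n (fun y => fderiv ℝ G y a) z := fun a =>
    (hG.fderiv_right hn).clm_apply contDiffAt_const
  exact (h1.clm_apply (h2 a)).clm_apply (h2 b)

end gen

variable {V : Type*} [NormedAddCommGroup V] [NormedSpace ℝ V]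

/-- the map `(t, z) ↦ (t, r (t, z))` -/
def gr (r : V × C2 → ℂ × ℂ) (q : V × C2) : V × (ℂ × ℂ) := (q.1, r q)

variable {r : V × C2 → ℂ × ℂ} {t₁ : V} {z : C2}
  {κ : V × (ℂ × ℂ) → V × (ℂ × ℂ) →L[ℝ] V × (ℂ × ℂ) →L[ℝ] ℂ}

theorem hasFDerivAt_gr {q : V × C2} (hr : DifferentiableAt ℝ r q) : HasFDerivAt (gr r)
    ((ContinuousLinearMap.fst ℝ V C2).prod (fderiv ℝ r q)) q :=
  HasFDerivAt.prodMk hasFDerivAt_fst hr.hasFDerivAt

theorem fderiv_gr {q : V × C2} (hr : DifferentiableAt ℝ r q) (p : V × C2) :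
    fderiv ℝ (gr r) q p = (p.1, fderiv ℝ r q p) := by
  rw [(hasFDerivAt_gr hr).fderiv]
  rfl

theorem contDiffAt_gr {n : WithTop ℕ∞} {q : V × C2} (hr : ContDiffAt ℝ n r q) :
    ContDiffAt ℝ n (gr r) q := contDiffAt_fst.prodMk hr

/-- the vertical part of the pullback of `κ` -/
def tk (κ : V × (ℂ × ℂ) → V × (ℂ × ℂ) →L[ℝ] V × (ℂ × ℂ) →L[ℝ] ℂ) (r : V × C2 → ℂ × ℂ)
    (q : V × C2) (a b : C2) : ℂ := pl κ (gr r) q (0, a) (0, b)

/-- the contraction of the pullback of `κ` with `(u, 0)` -/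
def ak (κ : V × (ℂ × ℂ) → V × (ℂ × ℂ) →L[ℝ] V × (ℂ × ℂ) →L[ℝ] ℂ) (r : V × C2 → ℂ × ℂ)
    (t₁ u : V) (z b : C2) : ℂ := pl κ (gr r) (t₁, z) (u, 0) (0, b)

/-- **The local identity** (Cartan's formula). -/
theorem loc_identityK (hr : ContDiffAt ℝ 2 r (t₁, z)) (hκ : DifferentiableAt ℝ κ (gr r (t₁, z)))
    (hs : ∀ᶠ q in 𝓝 (t₁, z), ∀ a b, κ (gr r q) a b = -κ (gr r q) b a)
    (hd : ∀ a b c, dd κ (gr r (t₁, z)) a b c = 0) (u : V) (a b : C2) :
    fderiv ℝ (fun q => tk κ r q a b) (t₁, z) (u, 0) =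
    fderiv ℝ (fun z => ak κ r t₁ u z b) z a - fderiv ℝ (fun z => ak κ r t₁ u z a) z b := by
  have h1 := pl_closed hκ (contDiffAt_gr hr) hs.self_of_nhds (u, 0) (0, a) (0, b) (hd _ _ _)
  have h2 : (fun q => pl κ (gr r) q (0, b) (u, 0)) =ᶠ[𝓝 (t₁, z)]
      fun q => -pl κ (gr r) q (u, 0) (0, b) := by
    filter_upwards [hs] with q hq
    exact pl_swap hq _ _
  have h3 : ∀ b, ∀ a, fderiv ℝ (fun z => ak κ r t₁ u z b) z a =
      fderiv ℝ (fun q => pl κ (gr r) q (u, 0) (0, b)) (t₁, z) (0, a) := by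
    intro b a
    obtain ⟨L, hL, -⟩ := hasFDerivAt_pl hκ (contDiffAt_gr hr) (u, 0) (0, b)
    have h4 : HasFDerivAt (fun z => ak κ r t₁ u z b) (L.comp (ContinuousLinearMap.inr ℝ V C2)) z :=
      hL.comp z (hasFDerivAt_prodMk_right t₁ z)
    rw [h4.fderiv, hL.fderiv]
    simp
  rw [h2.fderiv_eq, fderiv_fun_neg] at h1
  rw [h3, h3]
  have h5 : fderiv ℝ (fun q => tk κ r q a b) (t₁, z) (u, 0) =
    fderiv ℝ (fun q => pl κ (gr r) q (0, a) (0, b)) (t₁, z) (u, 0) := rfl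
  rw [h5]
  simp only [_root_.neg_apply] at h1
  linear_combination h1

/-! ### change of coordinates -/

section change

variable {r' : V × C2 → ℂ × ℂ} {h : V × (ℂ × ℂ) → ℂ × ℂ} {q : V × C2}
  {κ' : V × (ℂ × ℂ) → V × (ℂ × ℂ) →L[ℝ] V × (ℂ × ℂ) →L[ℝ] ℂ}

/-- change of the trivialisation -/
theorem pl_change (hr : DifferentiableAt ℝ r q) (hh : DifferentiableAt ℝ h (q.1, r q))
    (hr' : r' =ᶠ[𝓝 q] fun q => h (q.1, r q))
    (law : ∀ a b, κ (q.1, r q) a b = κ' (q.1, h (q.1, r q)) (a.1, fderiv ℝ h (q.1, r q) a)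
      (b.1, fderiv ℝ h (q.1, r q) b)) (a b : V × C2) :
    pl κ' (gr r') q a b = pl κ (gr r) q a b := by
  have h3 : HasFDerivAt (fun q : V × C2 => h (q.1, r q))
      ((fderiv ℝ h (q.1, r q)).comp ((ContinuousLinearMap.fst ℝ V C2).prod (fderiv ℝ r q))) q :=
    HasFDerivAt.comp (g := h) (f := fun q : V × C2 => (q.1, r q)) q hh.hasFDerivAt
      (hasFDerivAt_gr hr)
  have hd' : DifferentiableAt ℝ r' q := (h3.congr_of_eventuallyEq hr').differentiableAt
  have hD : ∀ p, fderiv ℝ r' q p = fderiv ℝ h (q.1, r q) (p.1, fderiv ℝ r q p) := by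
    intro p
    rw [hr'.fderiv_eq, h3.fderiv]
    rfl
  rw [pl, pl, fderiv_gr hd', fderiv_gr hd', fderiv_gr hr, fderiv_gr hr, hD, hD, gr, gr, law,
    hr'.self_of_nhds]

/-- change of the chart of the base surface -/
theorem pl_base {c : C2 → C2} (hr : DifferentiableAt ℝ r (t₁, c z)) (hc : DifferentiableAt ℝ c z)
    (hr' : r' =ᶠ[𝓝 (t₁, z)] fun q => r (q.1, c q.2)) (a b : V × C2) :
    pl κ (gr r') (t₁, z) a b = pl κ (gr r) (t₁, c z) (a.1, fderiv ℝ c z a.2)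
      (b.1, fderiv ℝ c z b.2) := by
  have h2 : HasFDerivAt (fun q : V × C2 => (q.1, c q.2))
      ((ContinuousLinearMap.fst ℝ V C2).prod
        ((fderiv ℝ c z).comp (ContinuousLinearMap.snd ℝ V C2))) (t₁, z) :=
    HasFDerivAt.prodMk hasFDerivAt_fst
      (HasFDerivAt.comp (g := c) (t₁, z) hc.hasFDerivAt hasFDerivAt_snd)
  have h3 : HasFDerivAt (fun q : V × C2 => r (q.1, c q.2)) _ (t₁, z) :=
    HasFDerivAt.comp (g := r) (f := fun q : V × C2 => (q.1, c q.2)) (t₁, z) hr.hasFDerivAt h2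
  have hd' : DifferentiableAt ℝ r' (t₁, z) := (h3.congr_of_eventuallyEq hr').differentiableAt
  have hD : ∀ p, fderiv ℝ r' (t₁, z) p = fderiv ℝ r (t₁, c z) (p.1, fderiv ℝ c z p.2) := by
    intro p
    rw [hr'.fderiv_eq, h3.fderiv]
    rfl
  rw [pl, pl, fderiv_gr hd', fderiv_gr hd', fderiv_gr hr, fderiv_gr hr, hD, hD, gr, gr,
    hr'.self_of_nhds]

end change

end Vale.Agent.P281.H578.S
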