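import Vale.Agent.P290.H722.Per
import Vale.Agent.P281.H578.S.Loc

/-!
# P281, T-S, block S3 (helper578): a closed two-form of the total space of a family is flat

`TotForm F` : a smooth closed two-form on the total space of the family `F`, in the local
trivialisations. `res K t` : its restriction to the fibre over `t`. `W S K t` : this restriction,
transported to the fibre over `t₀` by the smooth trivialisation `S`. `pair_W_const` : the class of
`W S K t` does not depend on `t`.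
-/

set_option linter.unusedSectionVars false
set_option linter.unusedVariables false

open scoped Manifold ContDiff Topology ComplexConjugate
open Set Filter Vale.Agent.P267 Vale.Agent.P267.FL Vale.Agent.P290 Vale.Agent.P290.H805
  Vale.Agent.P290.H95 Vale.Agent.P290.H445 Vale.Agent.P290.H686 Vale.Agent.P267.RR
  Vale.Agent.P267.H332 Vale.Agent.P267.BlockC Vale.Agent.P290.H722

noncomputable section

namespace Vale.Agent.P281.H578.S

section defs

variable {V : Type} [NormedAddCommGroup V] [NormedSpace ℂ V] {D : Set V}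
  {E : Type} [TopologicalSpace E]

/-- A smooth closed two-form on the total space of a family of surfaces over the subset `D` of `V`,
in the local trivialisations. -/
structure TotForm (F : Family D E) where
  κ : E → V × (ℂ × ℂ) → V × (ℂ × ℂ) →L[ℝ] V × (ℂ × ℂ) →L[ℝ] ℂ
  swap : ∀ (y : E) (t : D) (w : ℂ × ℂ), (t, w) ∈ (F.triv y).target →
    ∀ a b, κ y (t, w) a b = -κ y (t, w) b a
  smooth : ∀ (y : E) (t : D) (w : ℂ × ℂ), (t, w) ∈ (F.triv y).target →
    ContDiffAt ℝ ∞ (κ y) (t, w)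
  closed : ∀ (y : E) (t : D) (w : ℂ × ℂ), (t, w) ∈ (F.triv y).target →
    ∀ a b c, dd (κ y) (t, w) a b c = 0
  law : ∀ (y y' : E) (t : D) (w : ℂ × ℂ), (t, w) ∈ (F.triv y).target →
    (F.triv y).symm (t, w) ∈ (F.triv y').source → ∀ a b : V × (ℂ × ℂ),
      κ y (t, w) a b = κ y' (t, trn F y y' (t, w)) (a.1, fderiv ℝ (trn F y y') (t, w) a)
        (b.1, fderiv ℝ (trn F y y') (t, w) b)

/-- the inclusion of the fibre direction -/
def jf (V : Type) [NormedAddCommGroup V] [NormedSpace ℂ V] : FL.C2 →L[ℝ] V × (ℂ × ℂ) :=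
  (ContinuousLinearMap.inr ℝ V (ℂ × ℂ)).comp ((φ.symm : FL.C2 →L[ℂ] ℂ × ℂ).restrictScalars ℝ)

@[simp] theorem jf_apply (a : FL.C2) : jf V a = (0, φ.symm a) := rfl

end defs

variable {V : Type} [NormedAddCommGroup V] [NormedSpace ℂ V] {D : Set V}
  {E : Type} [TopologicalSpace E] [T2Space E] {𝓕 : K3Family V D E} {t₀ : D}

/-- the restriction to the fibre, as a family of bilinear maps -/
def resB (K : TotForm 𝓕.F) (t : D) (x : Fib 𝓕.F t) : FL.C2 →L[ℝ] FL.C2 →L[ℝ] ℂ :=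
  (K.κ x.val (t, fibChart 𝓕.F t x x)).bilinearComp (jf V) (jf V)

theorem resB_apply (K : TotForm 𝓕.F) (t : D) (x : Fib 𝓕.F t) (a b : FL.C2) : resB K t x a b =
    K.κ x.val (t, fibChart 𝓕.F t x x) (0, φ.symm a) (0, φ.symm b) := rfl

/-- the restriction of a two-form of the total space to the fibre over `t` -/
def res (K : TotForm 𝓕.F) (t : D) : TwoF (𝓕.k3 t).X where
  f20 x := c20 fun v => resB K t x v
  f11 x := c11 fun v => resB K t x v
  f02 x := c02 fun v => resB K t x v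

theorem mem_target_self (t : D) (x : Fib 𝓕.F t) :
    ((t, fibChart 𝓕.F t x x) : D × (ℂ × ℂ)) ∈ (𝓕.F.triv x.val).target :=
  (fibChart 𝓕.F t x).map_source (𝓕.F.mem x.1)

theorem val2_res (K : TotForm 𝓕.F) (t : D) (x : (𝓕.k3 t).X) :
    val2 (res K t) x = resB K t x :=
  ev2_comps _ fun v w => K.swap _ t _ (mem_target_self t x) _ _

/-- the fibre charts -/
abbrev fch (𝓕 : K3Family V D E) (t : D) (x : Fib 𝓕.F t) :
    OpenPartialHomeomorph (𝓕.k3 t).X (ℂ × ℂ) := fibChart 𝓕.F t x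

theorem fch_mem (t : D) (x : Fib 𝓕.F t) : fch 𝓕 t x ∈ atlas (ℂ × ℂ) (𝓕.k3 t).X := mem_range_self x

theorem fch_mem' (t : D) (x : Fib 𝓕.F t) : toFL (fch 𝓕 t x) ∈ atlas FL.C2 (𝓕.k3 t).X :=
  mem_atlas_toFL _ (fch_mem t x)

/-- the transition maps are smooth -/
theorem trn_smooth {y y' : E} {t : D} {w : ℂ × ℂ} (h : (t, w) ∈ (𝓕.F.triv y).target)
    (h' : (𝓕.F.triv y).symm (t, w) ∈ (𝓕.F.triv y').source) :
    DifferentiableAt ℝ (trn 𝓕.F y y') (t, w) :=
  (𝓕.hol y y' t w h h').differentiableAt.restrictScalars ℝ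

/-- the restriction in the fibre charts -/
theorem E2_res (K : TotForm 𝓕.F) (t : D) (x₀ : Fib 𝓕.F t) {x : (𝓕.k3 t).X}
    (hx : x ∈ (fch 𝓕 t x₀).source) (a b : FL.C2) :
    E2 (toFL (fch 𝓕 t x₀)) (res K t) (toFL (fch 𝓕 t x₀) x) a b =
      K.κ x₀.val (t, fch 𝓕 t x₀ x) (0, φ.symm a) (0, φ.symm b) := by
  have hx' : x ∈ (toFL (fch 𝓕 t x₀)).source := hx
  rw [E2_apply (fch_mem' t x₀) _ hx', val2_res]
  show K.κ (x : Fib 𝓕.F t).val (t, fibChart 𝓕.F t x x) (0, φ.symm (Dch (toFL (fch 𝓕 t x₀)) x a))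
    (0, φ.symm (Dch (toFL (fch 𝓕 t x₀)) x b)) = _
  have h1 : ((t, fch 𝓕 t x₀ x) : D × (ℂ × ℂ)) ∈ (𝓕.F.triv x₀.val).target :=
    (fch 𝓕 t x₀).map_source hx
  have h2 : (𝓕.F.triv x₀.val).symm (t, fch 𝓕 t x₀ x) = (x : Fib 𝓕.F t).val := by
    rw [← fibChart_symm_val 𝓕.F t x₀ h1]
    exact congrArg Fib.val ((fch 𝓕 t x₀).left_inv hx)
  have h3 : (𝓕.F.triv x₀.val).symm (t, fch 𝓕 t x₀ x) ∈ (𝓕.F.triv (x : Fib 𝓕.F t).val).source := by
    rw [h2]
    exact 𝓕.F.mem _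
  have h4 : trn 𝓕.F x₀.val (x : Fib 𝓕.F t).val (t, fch 𝓕 t x₀ x) = fibChart 𝓕.F t x x := by
    rw [trn_apply, h2]
    rfl
  -- the differential of the change of charts
  have h5 : ∀ a, φ.symm (Dch (toFL (fch 𝓕 t x₀)) x a) =
      fderiv ℝ (trn 𝓕.F x₀.val (x : Fib 𝓕.F t).val) (t, fch 𝓕 t x₀ x) (0, φ.symm a) := by
    intro a
    have k1 : (fun z => chartAt FL.C2 x ((toFL (fch 𝓕 t x₀)).symm z)) =ᶠ[𝓝 (toFL (fch 𝓕 t x₀) x)]
        fun z => φ (trn 𝓕.F x₀.val (x : Fib 𝓕.F t).val (t, φ.symm z)) := by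
      filter_upwards [(toFL (fch 𝓕 t x₀)).open_target.mem_nhds
        ((toFL (fch 𝓕 t x₀)).map_source hx')] with z hz
      have hz' : ((t, φ.symm z) : D × (ℂ × ℂ)) ∈ (𝓕.F.triv x₀.val).target := hz
      rw [trn_apply, ← fibChart_symm_val 𝓕.F t x₀ hz']
      rfl
    have k2 : HasFDerivAt (fun z : FL.C2 => ((t : V), φ.symm z)) (jf V)
        (toFL (fch 𝓕 t x₀) x) := by
      have h : HasFDerivAt (fun z : FL.C2 => φ.symm z)
          ((φ.symm : FL.C2 →L[ℂ] ℂ × ℂ).restrictScalars ℝ) (toFL (fch 𝓕 t x₀) x) :=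
        ((φ.symm : FL.C2 →L[ℂ] ℂ × ℂ).restrictScalars ℝ).hasFDerivAt
      exact (hasFDerivAt_prodMk_right (t : V) _).comp _ h
    have k3 : HasFDerivAt (trn 𝓕.F x₀.val (x : Fib 𝓕.F t).val)
        (fderiv ℝ (trn 𝓕.F x₀.val (x : Fib 𝓕.F t).val) (t, fch 𝓕 t x₀ x))
        ((t : V), φ.symm (toFL (fch 𝓕 t x₀) x)) := (trn_smooth h1 h3).hasFDerivAt
    have k4 := HasFDerivAt.comp (g := trn 𝓕.F x₀.val (x : Fib 𝓕.F t).val)
      (f := fun z : FL.C2 => ((t : V), φ.symm z)) (toFL (fch 𝓕 t x₀) x) k3 k2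
    have k5 : HasFDerivAt (fun z : FL.C2 => φ (trn 𝓕.F x₀.val (x : Fib 𝓕.F t).val (t, φ.symm z)))
        (((φ : (ℂ × ℂ) →L[ℂ] FL.C2).restrictScalars ℝ).comp _) (toFL (fch 𝓕 t x₀) x) :=
      ((φ : (ℂ × ℂ) →L[ℂ] FL.C2).restrictScalars ℝ).hasFDerivAt.comp _ k4
    rw [Dch, k1.fderiv_eq, k5.fderiv]
    simp
  rw [h5, h5, K.law x₀.val (x : Fib 𝓕.F t).val t _ h1 h3, h4]

theorem E2_res' (K : TotForm 𝓕.F) (t : D) (x₀ : Fib 𝓕.F t) {z : FL.C2}
    (hz : z ∈ (toFL (fch 𝓕 t x₀)).target) (a b : FL.C2) :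
    E2 (toFL (fch 𝓕 t x₀)) (res K t) z a b =
      K.κ x₀.val (t, φ.symm z) (0, φ.symm a) (0, φ.symm b) := by
  have h := E2_res K t x₀ ((toFL (fch 𝓕 t x₀)).map_target hz) a b
  have h2 : fch 𝓕 t x₀ ((toFL (fch 𝓕 t x₀)).symm z) = φ.symm z :=
    (fch 𝓕 t x₀).right_inv hz
  rwa [(toFL (fch 𝓕 t x₀)).right_inv hz, h2] at h

theorem hasFDerivAt_sl (t : V) (z : FL.C2) :
    HasFDerivAt (fun z : FL.C2 => (t, φ.symm z)) (jf V) z := by
  have h : HasFDerivAt (fun z : FL.C2 => φ.symm z)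
      ((φ.symm : FL.C2 →L[ℂ] ℂ × ℂ).restrictScalars ℝ) z :=
    ((φ.symm : FL.C2 →L[ℂ] ℂ × ℂ).restrictScalars ℝ).hasFDerivAt
  exact (hasFDerivAt_prodMk_right t _).comp _ h

theorem contDiff_sl (t : V) : ContDiff ℝ ∞ fun z : FL.C2 => (t, φ.symm z) :=
  contDiff_const.prodMk ((φ.symm : FL.C2 →L[ℂ] ℂ × ℂ).restrictScalars ℝ).contDiff

/-- the restriction is smooth -/
theorem smooth_res (K : TotForm 𝓕.F) (t : D) : (res K t).Smooth := by
  rw [smooth2_iff]
  rintro _ ⟨_, ⟨x₀, rfl⟩, rfl⟩ z hz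
  refine contDiffAt_clm fun a => contDiffAt_clm fun b => ?_
  have h1 : ContDiffAt ℝ ∞ (fun z : FL.C2 => K.κ x₀.val (t, φ.symm z)) z :=
    ContDiffAt.comp (g := K.κ x₀.val) (f := fun z : FL.C2 => ((t : V), φ.symm z)) z
      (K.smooth x₀.val t _ hz) (contDiff_sl _).contDiffAt
  refine ((h1.clm_apply contDiffAt_const).clm_apply
    (contDiffAt_const (c := ((0, φ.symm b) : V × (ℂ × ℂ))))).congr_of_eventuallyEq
    (f := fun z => K.κ x₀.val (t, φ.symm z) (0, φ.symm a) (0, φ.symm b)) ?_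
  filter_upwards [(toFL (fch 𝓕 t x₀)).open_target.mem_nhds hz] with z hz
  exact E2_res' K t x₀ hz a b

/-- the restriction is closed -/
theorem closed_res (K : TotForm 𝓕.F) (t : D) : (res K t).Closed := by
  rw [closed_iff' (smooth_res K t)]
  rintro _ ⟨_, ⟨x₀, rfl⟩, rfl⟩ x hx a b c
  set z := toFL (fibChart 𝓕.F t x₀) x with hz'
  have hz : z ∈ (toFL (fch 𝓕 t x₀)).target := (toFL (fch 𝓕 t x₀)).map_source hx
  have hsm := smooth2_iff.1 (smooth_res K t) _ (fch_mem' t x₀) z hz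
  have hd : DifferentiableAt ℝ (E2 (toFL (fch 𝓕 t x₀)) (res K t)) z :=
    hsm.differentiableAt (by simp)
  have key : ∀ a b c, fderiv ℝ (E2 (toFL (fch 𝓕 t x₀)) (res K t)) z a b c =
      fderiv ℝ (K.κ x₀.val) (t, φ.symm z) (0, φ.symm a) (0, φ.symm b) (0, φ.symm c) := by
    intro a b c
    have h1 := (hd.hasFDerivAt.clm_apply (hasFDerivAt_const b z)).clm_apply
      (hasFDerivAt_const c z)
    have h2 : (fun z => E2 (toFL (fch 𝓕 t x₀)) (res K t) z b c) =ᶠ[𝓝 z]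
        fun z => K.κ x₀.val (t, φ.symm z) (0, φ.symm b) (0, φ.symm c) := by
      filter_upwards [(toFL (fch 𝓕 t x₀)).open_target.mem_nhds hz] with z hz
      exact E2_res' K t x₀ hz b c
    have h3 : HasFDerivAt (fun z : FL.C2 => K.κ x₀.val ((t : V), φ.symm z))
        ((fderiv ℝ (K.κ x₀.val) (t, φ.symm z)).comp (jf V)) z :=
      HasFDerivAt.comp (g := K.κ x₀.val) z
        ((K.smooth x₀.val t _ hz).differentiableAt (by simp)).hasFDerivAt (hasFDerivAt_sl _ z)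
    have h4 := (h3.clm_apply (hasFDerivAt_const ((0, φ.symm b) : V × (ℂ × ℂ)) z)).clm_apply
      (hasFDerivAt_const ((0, φ.symm c) : V × (ℂ × ℂ)) z)
    have h5 := congrArg (fun L => L a) ((h4.congr_of_eventuallyEq h2).unique h1)
    simpa using h5.symm
  have h6 := K.closed x₀.val t _ hz (0, φ.symm a) (0, φ.symm b) (0, φ.symm c)
  rw [dd] at h6
  show alt2 (E2 (toFL (fch 𝓕 t x₀)) (res K t)) z a b c = 0
  rw [alt2, key, key, key]
  exact h6

theorem res_mem (K : TotForm 𝓕.F) (t : D) : res K t ∈ HC (𝓕.k3 t).X :=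
  H342.mem_HC_iff.2 ⟨smooth_res K t, closed_res K t⟩

/-! ### the transported restrictions -/

section trans

variable (S : SmTriv 𝓕 t₀) (K : TotForm 𝓕.F)

open Classical in
/-- the restriction of `K` to the fibre over `t`, transported to the fibre over `t₀` -/
def W (t : V) : TwoF (𝓕.k3 t₀).X :=
  if h : t ∈ S.N then pb2 (S.homeo t h) (res K ⟨t, S.sub h⟩) else 0

variable {S K}

theorem W_eq {t : V} (h : t ∈ S.N) : W S K t = pb2 (S.homeo t h) (res K ⟨t, S.sub h⟩) := by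
  rw [W, dif_pos h]

theorem smooth_W {t : V} (h : t ∈ S.N) : (W S K t).Smooth := by
  rw [W_eq h]
  exact pb2_smooth (S.diffeo t h).smooth (smooth_res K _)

theorem closed_W {t : V} (h : t ∈ S.N) : (W S K t).Closed := by
  rw [W_eq h]
  exact pb2_closed (S.diffeo t h).smooth (smooth_res K _) (closed_res K _)

theorem W_mem {t : V} (h : t ∈ S.N) : W S K t ∈ HC (𝓕.k3 t₀).X :=
  H342.mem_HC_iff.2 ⟨smooth_W h, closed_W h⟩

variable {t : V} {e : Ch (𝓕.k3 t₀).X} {x : (𝓕.k3 t₀).X}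

/-- **The form `W t` in charts.** -/
theorem E2_W (ht : t ∈ S.N) (he : e ∈ atlas FL.C2 (𝓕.k3 t₀).X) (hx : x ∈ e.source) {y : E}
    (hy : S.Φ t x ∈ (𝓕.F.triv y).source) (a b : FL.C2) :
    E2 e (W S K t) (e x) a b = tk (K.κ y) (repF S.Φ e y) (t, e x) a b := by
  set t' : D := ⟨t, S.sub ht⟩ with ht'
  set x' : Fib 𝓕.F t' := S.homeo t ht x with hx'
  have hval : x'.val = S.Φ t x := S.homeo_val t ht x
  have hself : S.Φ t x ∈ (𝓕.F.triv (S.Φ t x)).source := 𝓕.F.mem _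
  have hr := (S.smooth_repF ht he hx hself).differentiableAt (by simp)
  -- change to the trivialisation at `Φ t x`
  have hch : tk (K.κ y) (repF S.Φ e y) (t, e x) a b =
      tk (K.κ (S.Φ t x)) (repF S.Φ e (S.Φ t x)) (t, e x) a b := by
    have hp := SmTriv.repF_apply S.Φ (e := e) (t := t) (S.Φ t x) hx
    have hpt : ((⟨t, S.sub ht⟩ : D), repF S.Φ e (S.Φ t x) (t, e x)) ∈
        (𝓕.F.triv (S.Φ t x)).target := by
      rw [hp]
      exact S.mem_target_Φ ht x hself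
    have hps : (𝓕.F.triv (S.Φ t x)).symm (⟨t, S.sub ht⟩, repF S.Φ e (S.Φ t x) (t, e x)) =
        S.Φ t x := by
      rw [hp]
      exact S.symm_Φ ht x hself
    have hps' : (𝓕.F.triv (S.Φ t x)).symm (⟨t, S.sub ht⟩, repF S.Φ e (S.Φ t x) (t, e x)) ∈
        (𝓕.F.triv y).source := by
      rw [hps]
      exact hy
    exact pl_change hr (trn_smooth hpt hps') (S.repF_trn ht hx hself y)
      (K.law (S.Φ t x) y ⟨t, S.sub ht⟩ _ hpt hps') _ _
  rw [hch, W_eq ht]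
  have hx1 : S.homeo t ht x ∈ (fch 𝓕 t' x').source := 𝓕.F.mem x'.1
  have hx1' : S.homeo t ht x ∈ (toFL (fch 𝓕 t' x')).source := hx1
  have hρ : ∀ z, repF S.Φ e (S.Φ t x) (t, z) = fch 𝓕 t' x' (S.homeo t ht (e.symm z)) := by
    intro z
    have h1 : (S.homeo t ht (e.symm z) : Fib 𝓕.F t').val = S.Φ t (e.symm z) :=
      S.homeo_val t ht (e.symm z)
    have h2 : fch 𝓕 t' x' (S.homeo t ht (e.symm z)) =
        (𝓕.F.triv x'.val (S.homeo t ht (e.symm z) : Fib 𝓕.F t').val).2 := rfl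
    rw [h2, h1, hval]
    rfl
  have h1 := E2_pb2 (S.diffeo t ht).smooth (res K t') he (fch_mem' t' x') hx hx1'
  have hrep : rep (S.homeo t ht) e (toFL (fch 𝓕 t' x')) =
      fun z => φ (repF S.Φ e (S.Φ t x) (t, z)) := by
    funext z
    rw [hρ, rep, toFL_apply]
  have h2 : HasFDerivAt (fun z => φ (repF S.Φ e (S.Φ t x) (t, z)))
      (((φ : (ℂ × ℂ) →L[ℂ] FL.C2).restrictScalars ℝ).comp
        ((fderiv ℝ (repF S.Φ e (S.Φ t x)) (t, e x)).comp (ContinuousLinearMap.inr ℝ V FL.C2)))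
      (e x) :=
    ((φ : (ℂ × ℂ) →L[ℂ] FL.C2).restrictScalars ℝ).hasFDerivAt.comp (e x)
      (S.fderiv_repF ht he hx hself)
  rw [h1, ContinuousLinearMap.bilinearComp_apply, hrep, h2.fderiv, E2_res K t' x' hx1]
  have h3 : fch 𝓕 t' x' (S.homeo t ht x) = repF S.Φ e (S.Φ t x) (t, e x) := by
    rw [hρ, e.left_inv hx]
  rw [h3, tk, pl, fderiv_gr hr, fderiv_gr hr, gr, hval]
  simp
  rfl

theorem swap_eventually (ht : t ∈ S.N) (hx : x ∈ e.source)
    {y : E} (hy : S.Φ t x ∈ (𝓕.F.triv y).source) : ∀ᶠ q : V × FL.C2 in 𝓝 (t, e x),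
      ∀ a b, K.κ y (gr (repF S.Φ e y) q) a b = -K.κ y (gr (repF S.Φ e y) q) b a := by
  filter_upwards [S.eventually_Φ ht hx hy] with q hq a b
  exact K.swap y ⟨q.1, S.sub hq.1⟩ _ (S.mem_target_Φ hq.1 (e.symm q.2) hq.2.2) a b

theorem E2_W_eventually (ht : t ∈ S.N) (he : e ∈ atlas FL.C2 (𝓕.k3 t₀).X) (hx : x ∈ e.source)
    {y : E} (hy : S.Φ t x ∈ (𝓕.F.triv y).source) : ∀ᶠ q : V × FL.C2 in 𝓝 (t, e x),
      ∀ a b, E2 e (W S K q.1) q.2 a b = tk (K.κ y) (repF S.Φ e y) q a b := by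
  filter_upwards [S.eventually_Φ ht hx hy] with q hq a b
  have h := E2_W (K := K) hq.1 he (e.map_target hq.2.1) hq.2.2 a b
  rwa [e.right_inv hq.2.1] at h

theorem mem_target_gr (ht : t ∈ S.N) (hx : x ∈ e.source) {y : E}
    (hy : S.Φ t x ∈ (𝓕.F.triv y).source) :
    ((⟨t, S.sub ht⟩ : D), repF S.Φ e y (t, e x)) ∈ (𝓕.F.triv y).target := by
  rw [SmTriv.repF_apply S.Φ y hx]
  exact S.mem_target_Φ ht x hy

theorem smooth_κ (ht : t ∈ S.N) (hx : x ∈ e.source) {y : E}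
    (hy : S.Φ t x ∈ (𝓕.F.triv y).source) :
    ContDiffAt ℝ ∞ (K.κ y) (gr (repF S.Φ e y) (t, e x)) :=
  K.smooth y ⟨t, S.sub ht⟩ _ (mem_target_gr ht hx hy)

theorem smFam_W : SmFam (W S K) S.N := by
  intro t ht e he z hz
  obtain ⟨x, hx, rfl⟩ : ∃ x ∈ e.source, e x = z := ⟨e.symm z, e.map_target hz, e.right_inv hz⟩
  have hself : S.Φ t x ∈ (𝓕.F.triv (S.Φ t x)).source := 𝓕.F.mem _
  refine contDiffAt_clm fun a => contDiffAt_clm fun b => ?_
  refine (contDiffAt_pl infty_sub (smooth_κ (K := K) ht hx hself)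
    (contDiffAt_gr (S.smooth_repF ht he hx hself)) (0, a) (0, b)).congr_of_eventuallyEq ?_
  filter_upwards [E2_W_eventually (K := K) ht he hx hself] with q hq
  exact hq a b

/-! ### the primitive of the derivative -/

/-- `ak` as a continuous linear map -/
def akL (κ : V × (ℂ × ℂ) → V × (ℂ × ℂ) →L[ℝ] V × (ℂ × ℂ) →L[ℝ] ℂ) (r : V × FL.C2 → ℂ × ℂ)
    (t₁ u : V) (z : FL.C2) : FL.C2 →L[ℝ] ℂ :=
  (κ (gr r (t₁, z)) (fderiv ℝ (gr r) (t₁, z) (u, 0))).comp
    ((fderiv ℝ (gr r) (t₁, z)).comp (ContinuousLinearMap.inr ℝ V FL.C2))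

theorem akL_apply (κ : V × (ℂ × ℂ) → V × (ℂ × ℂ) →L[ℝ] V × (ℂ × ℂ) →L[ℝ] ℂ)
    (r : V × FL.C2 → ℂ × ℂ) (t₁ u : V) (z b : FL.C2) : akL κ r t₁ u z b = ak κ r t₁ u z b := rfl

variable (S K) in
/-- the one-form `κ (∂_u Φ, dΦ)` -/
def akF (t u : V) : OneF (𝓕.k3 t₀).X where
  f10 x i := k10 i (akL (K.κ (S.Φ t x)) (repF S.Φ (chartAt FL.C2 x) (S.Φ t x)) t u
    (chartAt FL.C2 x x))
  f01 x i := k01 i (akL (K.κ (S.Φ t x)) (repF S.Φ (chartAt FL.C2 x) (S.Φ t x)) t u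
    (chartAt FL.C2 x x))

theorem val1_akF (t u : V) (x : (𝓕.k3 t₀).X) : val1 (akF S K t u) x =
    akL (K.κ (S.Φ t x)) (repF S.Φ (chartAt FL.C2 x) (S.Φ t x)) t u (chartAt FL.C2 x x) :=
  ev1_comps _

/-- independence of the trivialisation -/
theorem pl_repF (ht : t ∈ S.N) (he : e ∈ atlas FL.C2 (𝓕.k3 t₀).X) (hx : x ∈ e.source) {y y' : E}
    (hy : S.Φ t x ∈ (𝓕.F.triv y).source) (hy' : S.Φ t x ∈ (𝓕.F.triv y').source)
    (a b : V × FL.C2) : pl (K.κ y') (gr (repF S.Φ e y')) (t, e x) a b =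
      pl (K.κ y) (gr (repF S.Φ e y)) (t, e x) a b := by
  have hpt := mem_target_gr (S := S) ht hx hy
  have hps : (𝓕.F.triv y).symm (⟨t, S.sub ht⟩, repF S.Φ e y (t, e x)) ∈ (𝓕.F.triv y').source := by
    rw [SmTriv.repF_apply S.Φ y hx, S.symm_Φ ht x hy]
    exact hy'
  exact pl_change ((S.smooth_repF ht he hx hy).differentiableAt (by simp)) (trn_smooth hpt hps)
    (S.repF_trn ht hx hy y') (K.law y y' ⟨t, S.sub ht⟩ _ hpt hps) _ _

/-- the one-form in charts -/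
theorem E1_akF (ht : t ∈ S.N) (he : e ∈ atlas FL.C2 (𝓕.k3 t₀).X) (hx : x ∈ e.source) {y : E}
    (hy : S.Φ t x ∈ (𝓕.F.triv y).source) (u : V) (b : FL.C2) :
    E1 e (akF S K t u) (e x) b = ak (K.κ y) (repF S.Φ e y) t u (e x) b := by
  have hself : S.Φ t x ∈ (𝓕.F.triv (S.Φ t x)).source := 𝓕.F.mem _
  rw [ak, ← pl_repF ht he hx hy hself, E1_apply he _ hx, ContinuousLinearMap.comp_apply,
    val1_akF, akL_apply, Dch]
  have h1 := S.repF_base (t := t) hx (mem_chart_source FL.C2 x) (S.Φ t x)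
  have h2 : DifferentiableAt ℝ (fun z => (chartAt FL.C2 x) (e.symm z)) (e x) :=
    (trans_contDiffAt he (chart_mem_atlas FL.C2 x) hx (mem_chart_source FL.C2 x)
      (n := 1)).differentiableAt (by simp)
  have h3 : DifferentiableAt ℝ (repF S.Φ (chartAt FL.C2 x) (S.Φ t x))
      (t, (fun z => (chartAt FL.C2 x) (e.symm z)) (e x)) := by
    simp only [e.left_inv hx]
    exact (S.smooth_repF ht (chart_mem_atlas FL.C2 x) (mem_chart_source FL.C2 x)
      hself).differentiableAt (by simp)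
  rw [pl_base (κ := K.κ (S.Φ t x)) h3 h2 h1]
  simp only [e.left_inv hx, map_zero]
  rfl

theorem E1_akF_eventually (ht : t ∈ S.N) (he : e ∈ atlas FL.C2 (𝓕.k3 t₀).X) (hx : x ∈ e.source)
    {y : E} (hy : S.Φ t x ∈ (𝓕.F.triv y).source) (u : V) : ∀ᶠ z in 𝓝 (e x),
      ∀ b, E1 e (akF S K t u) z b = ak (K.κ y) (repF S.Φ e y) t u z b := by
  have h1 : ∀ᶠ z in 𝓝 (e x), t ∈ S.N ∧ z ∈ e.target ∧
      S.Φ t (e.symm z) ∈ (𝓕.F.triv y).source := by
    have h2 : Tendsto (fun z : FL.C2 => (t, z)) (𝓝 (e x)) (𝓝 (t, e x)) :=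
      (continuous_const.prodMk continuous_id).tendsto' _ _ rfl
    exact h2.eventually (S.eventually_Φ ht hx hy)
  filter_upwards [h1] with z hz b
  have h := E1_akF (K := K) ht he (e.map_target hz.2.1) hz.2.2 u b
  rwa [e.right_inv hz.2.1] at h

theorem smooth_akF (ht : t ∈ S.N) (u : V) : (akF S K t u).Smooth := by
  rw [smooth1_iff]
  intro e he z hz
  obtain ⟨x, hx, rfl⟩ : ∃ x ∈ e.source, e x = z := ⟨e.symm z, e.map_target hz, e.right_inv hz⟩
  have hself : S.Φ t x ∈ (𝓕.F.triv (S.Φ t x)).source := 𝓕.F.mem _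
  refine contDiffAt_clm fun b => ?_
  have h1 := contDiffAt_pl infty_sub (smooth_κ (K := K) ht hx hself)
    (contDiffAt_gr (S.smooth_repF ht he hx hself)) (u, 0) (0, b)
  have h2 : ContDiffAt ℝ ∞ (fun z => pl (K.κ (S.Φ t x)) (gr (repF S.Φ e (S.Φ t x))) (t, z)
      (u, 0) (0, b)) (e x) :=
    ContDiffAt.comp (g := fun q => pl (K.κ (S.Φ t x)) (gr (repF S.Φ e (S.Φ t x))) q
      (u, 0) (0, b)) (f := fun z : FL.C2 => (t, z)) (e x) h1
      (contDiffAt_const.prodMk contDiffAt_id)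
  refine h2.congr_of_eventuallyEq ?_
  filter_upwards [E1_akF_eventually (K := K) ht he hx hself u] with z hz
  exact hz b

/-- **The derivative of the transported forms is exact.** -/
theorem dT_W_eq (ht : t ∈ S.N) (u : V) : dT (W S K) t u = (akF S K t u).d := by
  refine val2_inj fun x => ?_
  rw [val2_eq_E2, val2_eq_E2]
  set e := chartAt FL.C2 x with he'
  have he : e ∈ atlas FL.C2 (𝓕.k3 t₀).X := chart_mem_atlas FL.C2 x
  have hx : x ∈ e.source := mem_chart_source FL.C2 x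
  have hself : S.Φ t x ∈ (𝓕.F.triv (S.Φ t x)).source := 𝓕.F.mem _
  set y := S.Φ t x with hy
  have hr := S.smooth_repF ht he hx hself
  have hg := smooth_κ (K := K) ht hx hself
  ext a b
  rw [smFam_W.E2_dT_apply ht u he (e.map_source hx) a b, E2_d (smooth_akF ht u) he hx, alt1]
  have h1 : fderiv ℝ (fun q : V × FL.C2 => E2 e (W S K q.1) q.2) (t, e x) (u, 0) a b =
      fderiv ℝ (fun q => tk (K.κ y) (repF S.Φ e y) q a b) (t, e x) (u, 0) := by
    have h2 := (smFam_W (S := S) (K := K)).differentiable_E2 ht he (e.map_source hx)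
    have h3 := ((h2.hasFDerivAt.clm_apply (hasFDerivAt_const a (t, e x))).clm_apply
      (hasFDerivAt_const b (t, e x)))
    have h4 : (fun q : V × FL.C2 => E2 e (W S K q.1) q.2 a b) =ᶠ[𝓝 (t, e x)]
        fun q => tk (K.κ y) (repF S.Φ e y) q a b := by
      filter_upwards [E2_W_eventually (K := K) ht he hx hself] with q hq
      exact hq a b
    rw [← h4.fderiv_eq, h3.fderiv]
    simp
  have h5 : ∀ a b : FL.C2, fderiv ℝ (E1 e (akF S K t u)) (e x) a b =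
      fderiv ℝ (fun z => ak (K.κ y) (repF S.Φ e y) t u z b) (e x) a := by
    intro a b
    have h2 := differentiableAt_E1 (smooth_akF (K := K) ht u) he (e.map_source hx)
    have h3 := h2.hasFDerivAt.clm_apply (hasFDerivAt_const b (e x))
    have h4 : (fun z => E1 e (akF S K t u) z b) =ᶠ[𝓝 (e x)]
        fun z => ak (K.κ y) (repF S.Φ e y) t u z b := by
      filter_upwards [E1_akF_eventually (K := K) ht he hx hself u] with q hq
      exact hq b
    rw [← h4.fderiv_eq, h3.fderiv]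
    simp
  rw [h1, h5, h5]
  exact loc_identityK (hr.of_le ENat.LEInfty.out) (hg.differentiableAt (by simp))
    (swap_eventually ht hx hself)
    (K.closed y ⟨t, S.sub ht⟩ _ (mem_target_gr ht hx hself)) u a b

theorem exact_dT_W (ht : t ∈ S.N) (u : V) : ExactTwo (dT (W S K) t u) :=
  ⟨akF S K t u, smooth_akF ht u, (dT_W_eq ht u).symm⟩

end trans

end Vale.Agent.P281.H578.S
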